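import Vale.Agent.Lib.P210R.Main

/-!
# P210: Urysohn width of rotationally symmetric metrics with scalar curvature at least one

Let `g = F(|x|²) (dx₁² + ... + dxₙ²)` be a metric on `ℝ^n`, `n ≥ 3`, with `F` smooth and positive and `Scal_g ≥ 1`.
Then `x ↦ |x|²` is a continuous map to the line all of whose fibres have `g`-diameter at most `π √(n (n - 1))`; so
the Urysohn `1`-width, a fortiori the `(n-2)`-width, is at most `π √(n (n - 1))`.

Proof: put `s = |x|²`, `w = s F` (the square of the radius of the sphere through `x`), `p = 1 + s F'/F`. The scalar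
curvature condition reads `w ≤ (n-1) ((n-2) (1 - p²) - 4 s p')`, and `w' = F p`. Where `p ≥ 0` the quantity
`G = √w^(n-2) (1 - p² - w/(n(n-1)))` is nondecreasing, and `G ≥ 0` at `s = 0` and at the zeros of `p` with
`w ≤ n (n-1)`. If `w` exceeded `n (n-1)`, then at the first crossing `p > 0` and `G < 0`, a contradiction.
Two points of a sphere are joined by an arc of a great circle.
-/

namespace Vale.Agent.Results.P210.RotSymmetricWidth

open Vale.Agent.P225
open scoped ContDiff

theorem result (n : ℕ) (hn : 3 ≤ n) (F : ℝ → ℝ) (hF : ContDiff ℝ ∞ F) (hpos : ∀ s, 0 < F s)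
    (hscal : ∀ x : Fin n → ℝ, 1 ≤ scal (conf F) x) :
    ∃ f : (Fin n → ℝ) → ℝ, Continuous f ∧ ∀ x y, f x = f y →
      gdist (conf F) x y ≤ ENNReal.ofReal (Real.pi * √((n : ℝ) * (n - 1))) :=
  main210 hn hF hpos hscal

end Vale.Agent.Results.P210.RotSymmetricWidth
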